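import Vale.Agent.P126.Tilt

/-!
One net cell per phase: tilting at the largest gain divides the slack by the inverse of the
relative precision of the net.
-/

namespace Vale.Agent.P126.Sharp

open scoped RealInnerProductSpace

variable {V : Type*} [NormedAddCommGroup V] [InnerProductSpace ℝ V]
variable {ι : Type*} [Fintype ι]

/-- One phase. The cell of the net is the only information that is used. -/
theorem phase [Nonempty ι] {B S : Set V} {g β : ι → V} {γ δ a Φ : ℝ} {ν : ι → ℝ}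
    (hν : IsWeight ν) (hB : Convex ℝ B) (h0 : (0 : V) ∈ B) (hg : ∀ i, g i ∈ S)
    (hnet : ∀ b ∈ B, ∃ i, ∀ v ∈ S, |⟪v, b⟫ - ⟪v, β i⟫| ≤ γ)
    (hγ : 0 < γ) (hδ : 0 < δ) (hΦ : 0 ≤ Φ) {u : V}
    (hdom : Dominated B g ν u a Φ) :
    ∃ i, Dominated B g (tiltWeight ν g (Φ / δ) (β i)) u (a + δ) (3 * γ / δ * Φ) := by
  rcases hΦ.eq_or_lt with rfl | hΦ0
  · obtain ⟨i, -⟩ := hnet 0 h0
    refine ⟨i, fun b hb t ht => ?_⟩
    have e : tiltWeight ν g 0 (β i) = ν := by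
      funext j
      simp [tiltWeight, hν.2]
    have := hdom b hb t ht
    have := mul_nonneg ht hδ.le
    simp only [zero_div, mul_zero, e] at *
    linarith
  set gain : ℝ → V → ℝ := fun s b => s * (⟪u, b⟫ - (a + δ)) - logMoment ν g s b with hgain
  set G : Set ℝ := {x | ∃ s, 0 ≤ s ∧ ∃ b ∈ B, x = gain s b} with hG
  have hG0 : (0 : ℝ) ∈ G := ⟨0, le_rfl, 0, h0, by simp [hgain, logMoment_zero hν]⟩
  have hGle : ∀ s, 0 ≤ s → ∀ b ∈ B, gain s b ≤ Φ - s * δ := fun s hs b hb => by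
    have := hdom b hb s hs
    simp only [hgain]
    linarith
  have hGbdd : BddAbove G := ⟨Φ, by
    rintro x ⟨s, hs, b, hb, rfl⟩
    have := hGle s hs b hb
    have := mul_nonneg hs hδ.le
    linarith⟩
  set S₀ := Φ / δ with hS₀
  have hS₀0 : 0 < S₀ := div_pos hΦ0 hδ
  have hη : 0 < S₀ * γ := mul_pos hS₀0 hγ
  obtain ⟨s, hs, b₀, hb₀, hpos, hbest⟩ : ∃ s, 0 ≤ s ∧ ∃ b ∈ B, 0 ≤ gain s b ∧
      sSup G - S₀ * γ ≤ gain s b := by
    obtain ⟨x, hxG, hx⟩ := exists_lt_of_lt_csSup ⟨0, hG0⟩ (by linarith : sSup G - S₀ * γ < sSup G)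
    rcases le_or_gt 0 x with h | h
    · obtain ⟨s, hs, b, hb, rfl⟩ := hxG
      exact ⟨s, hs, b, hb, h, hx.le⟩
    · refine ⟨0, le_rfl, 0, h0, ?_, ?_⟩ <;> simp only [hgain, zero_mul, logMoment_zero hν, sub_zero]
      · exact le_rfl
      · linarith
  have hsS : s ≤ S₀ := by
    rw [hS₀, le_div_iff₀ hδ]
    linarith [hGle s hs b₀ hb₀]
  set w := (s / S₀) • b₀ with hw
  have hwB : w ∈ B := hB.smul_mem_of_zero_mem h0 hb₀
    ⟨div_nonneg hs hS₀0.le, (div_le_one hS₀0).mpr hsS⟩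
  obtain ⟨i, hi⟩ := hnet w hwB
  refine ⟨i, fun b hb t ht => ?_⟩
  have hsw : S₀ • w = s • b₀ := by
    rw [hw, smul_smul, mul_div_cancel₀ _ hS₀0.ne']
  have hinner : ∀ v : V, S₀ * ⟪v, w⟫ = s * ⟪v, b₀⟫ := fun v => by
    rw [← real_inner_smul_right, hsw, real_inner_smul_right]
  have hclose : ∀ v ∈ S, |S₀ * ⟪v, β i⟫ - s * ⟪v, b₀⟫| ≤ S₀ * γ := fun v hv => by
    rw [← hinner, ← mul_sub, abs_mul, abs_of_pos hS₀0, abs_sub_comm]
    exact mul_le_mul_of_nonneg_left (hi v hv) hS₀0.le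
  have hlow : logMoment ν g S₀ (β i) ≤ logMoment ν g s b₀ + S₀ * γ :=
    logMoment_le_shift hν fun j => by
      have := (abs_le.mp (hclose (g j) (hg j))).2
      linarith
  rcases (add_nonneg hs ht).eq_or_lt with hst | hst
  · obtain rfl : t = 0 := by linarith
    rw [logMoment_zero (tiltWeight_isWeight hν g _ _)]
    have : 0 ≤ 3 * γ / δ * Φ := by positivity
    linarith
  set c := (s / (s + t)) • b₀ + (t / (s + t)) • b with hc
  have hcB : c ∈ B := hB hb₀ hb (by positivity) (by positivity) (by field_simp)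
  have hce : (s + t) • c = s • b₀ + t • b := by
    rw [hc, smul_add, smul_smul, smul_smul, mul_div_cancel₀ _ hst.ne', mul_div_cancel₀ _ hst.ne']
  have hcin : ∀ v : V, (s + t) * ⟪v, c⟫ = s * ⟪v, b₀⟫ + t * ⟪v, b⟫ := fun v => by
    rw [← real_inner_smul_right, hce, inner_add_right, real_inner_smul_right,
      real_inner_smul_right]
  have hSt : 0 < S₀ + t := by linarith
  set c' := (S₀ / (S₀ + t)) • β i + (t / (S₀ + t)) • b with hc'
  have hce' : (S₀ + t) • c' = S₀ • β i + t • b := by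
    rw [hc', smul_add, smul_smul, smul_smul, mul_div_cancel₀ _ hSt.ne', mul_div_cancel₀ _ hSt.ne']
  have hsplit := logMoment_tilt hν g S₀ t (β i) b c' hce'
  have hup : logMoment ν g (s + t) c ≤ logMoment ν g (S₀ + t) c' + S₀ * γ :=
    logMoment_le_shift hν fun j => by
      have := (abs_le.mp (hclose (g j) (hg j))).1
      have e : (S₀ + t) * ⟪g j, c'⟫ = S₀ * ⟪g j, β i⟫ + t * ⟪g j, b⟫ := by
        rw [← real_inner_smul_right, hce', inner_add_right, real_inner_smul_right,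
          real_inner_smul_right]
      rw [hcin, e]
      linarith
  have hmax : gain (s + t) c ≤ sSup G := le_csSup hGbdd ⟨s + t, hst.le, c, hcB, rfl⟩
  have hu := hcin u
  simp only [hgain] at hmax hbest
  have e3 : 3 * γ / δ * Φ = 3 * (S₀ * γ) := by rw [hS₀]; ring
  rw [e3]
  linarith

/-- Repeated phases: `|ι| ^ m` lists serve all dominated points. -/
theorem capturable_phases [Nonempty ι] {B S : Set V} {g β : ι → V} {γ δ : ℝ} {P : V → V → Prop}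
    (hB : Convex ℝ B) (h0 : (0 : V) ∈ B) (hg : ∀ i, g i ∈ S)
    (hnet : ∀ b ∈ B, ∃ i, ∀ v ∈ S, |⟪v, b⟫ - ⟪v, β i⟫| ≤ γ) (hγ : 0 < γ) (hδ : 0 < δ) :
    ∀ (m : ℕ) (a Φ : ℝ), 0 ≤ Φ →
      Capturable B S g P ((3 * γ / δ) ^ m * Φ) (a + m * δ) 1 →
      Capturable B S g P Φ a (Fintype.card ι ^ m) := by
  classical
  intro m
  induction m with
  | zero =>
    intro a Φ _ h
    simpa using h
  | succ m ih =>
    intro a Φ hΦ h ν hν
    have hnext : Capturable B S g P (3 * γ / δ * Φ) (a + δ) (Fintype.card ι ^ m) := by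
      refine ih _ _ (by positivity) ?_
      convert h using 1
      · rw [pow_succ]; ring
      · push_cast; ring
    choose M hM hMu using fun i : ι =>
      hnext (tiltWeight ν g (Φ / δ) (β i)) (tiltWeight_isWeight hν g _ _)
    refine ⟨Finset.univ.biUnion M, ?_, fun u hu hd => ?_⟩
    · refine (Finset.card_biUnion_le_card_mul _ _ _ fun i _ => hM i).trans (le_of_eq ?_)
      rw [Finset.card_univ, pow_succ]
      ring
    · obtain ⟨i, hi⟩ := phase hν hB h0 hg hnet hγ hδ hΦ hd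
      obtain ⟨p, hp, hP⟩ := hMu i u hu hi
      exact ⟨p, Finset.mem_biUnion.mpr ⟨i, Finset.mem_univ i, hp⟩, hP⟩

theorem capturable_end [Nonempty ι] {B S : Set V} {g : ι → V} {a ρ Φ : ℝ}
    (hg : ∀ i, g i ∈ S) (hbd : ∀ v ∈ S, ∀ b ∈ B, |⟪v, b⟫| ≤ 1) (hneg : ∀ b ∈ B, -b ∈ B)
    (hρ : 0 < ρ) (hρ1 : ρ ≤ 1) (ha : a ≤ ρ / 4) (hΦ : Φ ≤ ρ ^ 2 / 16) :
    Capturable B S g (fun u m => ∀ b ∈ B, |⟪u - m, b⟫| ≤ ρ) Φ a 1 := by
  intro ν hν
  refine ⟨{∑ i, ν i • g i}, by simp, fun u _ hd => ⟨_, Finset.mem_singleton_self _, ?_⟩⟩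
  have key : ∀ b ∈ B, ⟪u - ∑ i, ν i • g i, b⟫ ≤ ρ := by
    intro b hb
    have h1 := hd b hb (ρ / 4) (by positivity)
    have h2 := logMoment_small hν (s := ρ / 4) (by positivity) (by linarith)
      fun i => hbd (g i) (hg i) b hb
    rw [inner_sub_left]
    refine le_of_mul_le_mul_left ?_ (by positivity : 0 < ρ / 4)
    have h3 := mul_le_mul_of_nonneg_left ha (by positivity : 0 ≤ ρ / 4)
    have := sq_nonneg ρ
    linarith
  intro b hb
  refine abs_le.mpr ⟨?_, key b hb⟩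
  have := key (-b) (hneg b hb)
  rw [inner_neg_right] at this
  linarith

/-- A bounded compact set is covered at radius `ρ` by `|F| ^ m` balls. -/
theorem bounded_cover {B S : Set V} (hB : Convex ℝ B) (h0 : (0 : V) ∈ B)
    (hneg : ∀ b ∈ B, -b ∈ B) (hS : IsCompact S) (hS0 : (0 : V) ∈ S)
    (hbd : ∀ v ∈ S, ∀ b ∈ B, |⟪v, b⟫| ≤ 1) {F : Finset V} {m : ℕ} {γ δ ρ : ℝ}
    (hγ : 0 < γ) (hδ : 0 < δ) (hρ : 0 < ρ) (hρ1 : ρ ≤ 1) (ha : 2 * γ + m * δ ≤ ρ / 4)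
    (hdrop : (3 * γ / δ) ^ m * Real.log F.card ≤ ρ ^ 2 / 16)
    (hnet : ∀ b ∈ B, ∃ p ∈ F, p ∈ B ∧ ∀ v ∈ S, |⟪v, b⟫ - ⟪v, p⟫| ≤ γ) :
    ∃ M : Finset V, M.card ≤ F.card ^ m ∧ ∀ u ∈ S, ∃ p ∈ M, ∀ b ∈ B, |⟪u - p, b⟫| ≤ ρ := by
  classical
  set F' := F.filter (· ∈ B) with hF'
  have hF'ne : F'.Nonempty := by
    obtain ⟨p, hp, hpB, -⟩ := hnet 0 h0
    exact ⟨p, Finset.mem_filter.mpr ⟨hp, hpB⟩⟩
  have : Nonempty F' := hF'ne.to_subtype
  have hex : ∀ i : F', ∃ v ∈ S, ∀ w ∈ S, ⟪w, (i : V)⟫ ≤ ⟪v, (i : V)⟫ := fun i =>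
    hS.exists_isMaxOn (f := fun w : V => ⟪w, (i : V)⟫) ⟨0, hS0⟩
      (by fun_prop : Continuous fun w : V => ⟪w, (i : V)⟫).continuousOn
  choose g hg hgmax using hex
  have hnet' : ∀ b ∈ B, ∃ i : F', ∀ v ∈ S, |⟪v, b⟫ - ⟪v, (i : V)⟫| ≤ γ := by
    intro b hb
    obtain ⟨p, hp, hpB, h⟩ := hnet b hb
    exact ⟨⟨p, Finset.mem_filter.mpr ⟨hp, hpB⟩⟩, h⟩
  set ν : F' → ℝ := fun _ => (Fintype.card F' : ℝ)⁻¹ with hνdef
  have hcard0 : (0 : ℝ) < Fintype.card F' := by exact_mod_cast Fintype.card_pos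
  have hν : IsWeight ν := by
    refine ⟨fun i => inv_pos.mpr hcard0, ?_⟩
    rw [hνdef, Finset.sum_const, Finset.card_univ, nsmul_eq_mul, mul_inv_cancel₀ hcard0.ne']
  have hcardle : Fintype.card F' ≤ F.card := by
    rw [Fintype.card_coe]; exact Finset.card_filter_le _ _
  obtain ⟨M, hMc, hM⟩ := capturable_phases hB h0 hg hnet' hγ hδ m (2 * γ) (Real.log F.card)
    (Real.log_natCast_nonneg _) (capturable_end hg hbd hneg hρ hρ1 ha hdrop) ν hν
  refine ⟨M, hMc.trans (Nat.pow_le_pow_left hcardle m), fun u hu => hM u hu ?_⟩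
  intro b hb s hs
  obtain ⟨i, hi⟩ := hnet' b hb
  have h1 := abs_le.mp (hi u hu)
  have h2 := abs_le.mp (hi (g i) (hg i))
  have h3 := hgmax i u hu
  have h4 : ⟪u, b⟫ ≤ ⟪g i, b⟫ + 2 * γ := by linarith
  have h5 := mul_le_mul_of_nonneg_left h4 hs
  have h6 : s * ⟪g i, b⟫ - Real.log (Fintype.card F') ≤ logMoment ν g s b := by
    have e : s * ⟪g i, b⟫ - Real.log (Fintype.card F')
        = Real.log (ν i * Real.exp (s * ⟪g i, b⟫)) := by
      rw [Real.log_mul (hν.1 i).ne' (Real.exp_pos _).ne', Real.log_exp, hνdef, Real.log_inv]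
      ring
    rw [e]
    refine Real.log_le_log (mul_pos (hν.1 i) (Real.exp_pos _)) ?_
    exact Finset.single_le_sum (f := fun j => ν j * Real.exp (s * ⟪g j, b⟫))
      (fun j _ => (mul_pos (hν.1 j) (Real.exp_pos _)).le) (Finset.mem_univ i)
  have h7 : Real.log (Fintype.card F') ≤ Real.log F.card :=
    Real.log_le_log hcard0 (by exact_mod_cast hcardle)
  linarith

end Vale.Agent.P126.Sharp
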