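import Vale.Agent.P126.Basic
import Vale.Agent.P126.Scales
import Vale.Agent.P126.Sharp.Phase

/-!
Descent through the scales in long steps: the duality with an absolute factor.
-/

namespace Vale.Agent.P126.Sharp

open Pointwise
open scoped RealInnerProductSpace

variable {V : Type*} [NormedAddCommGroup V] [InnerProductSpace ℝ V]

theorem scale_step {K B : Set V} (hK : Convex ℝ K) (hneg : ∀ x ∈ K, -x ∈ K) (j : ℕ) {ρ : ℝ}
    {C M : Finset V} (hC : ∀ c ∈ C, c ∈ K)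
    (hCcov : ∀ x ∈ K, ∃ c ∈ C, ∀ b ∈ B, |⟪x - c, b⟫| ≤ 2 ^ (j + 1))
    (hM : ∀ u ∈ K, (∀ b ∈ B, |⟪u, b⟫| ≤ 2 ^ j) → ∃ m ∈ M, ∀ b ∈ B, |⟪u - m, b⟫| ≤ 2 ^ j * ρ) :
    ∃ C' : Finset V, (∀ c ∈ C', c ∈ K) ∧ C'.card ≤ C.card * M.card ∧
      ∀ x ∈ K, ∃ c ∈ C', ∀ b ∈ B, |⟪x - c, b⟫| ≤ 4 * (2 ^ j * ρ) := by
  classical
  set cell : V × V → V → Prop := fun z x =>
    x ∈ K ∧ ∀ b ∈ B, |⟪x - (z.1 + (2 : ℝ) • z.2), b⟫| ≤ 2 * (2 ^ j * ρ) with hcell
  set rep : V × V → V := fun z => if h : ∃ x, cell z x then h.choose else 0 with hrep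
  refine ⟨((C ×ˢ M).filter fun z => ∃ x, cell z x).image rep, ?_, ?_, ?_⟩
  · simp only [Finset.mem_image, Finset.mem_filter]
    rintro _ ⟨z, ⟨-, hz⟩, rfl⟩
    simp only [hrep, dif_pos hz]
    exact hz.choose_spec.1
  · exact Finset.card_image_le.trans ((Finset.card_filter_le _ _).trans
      (Finset.card_product _ _).le)
  intro x hx
  obtain ⟨c, hc, hcb⟩ := hCcov x hx
  have hy : (1 / 2 : ℝ) • x + (1 / 2 : ℝ) • (-c) ∈ K :=
    hK hx (hneg c (hC c hc)) (by norm_num) (by norm_num) (by norm_num)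
  obtain ⟨m, hm, hmb⟩ := hM _ hy (fun b hb => by
    rw [inner_add_left, real_inner_smul_left, real_inner_smul_left, inner_neg_left, mul_neg,
      ← sub_eq_add_neg, ← mul_sub, abs_mul, ← inner_sub_left,
      abs_of_nonneg (by norm_num : (0 : ℝ) ≤ 1 / 2)]
    have h := hcb b hb
    rw [pow_succ] at h
    linarith)
  have hcx : cell (c, m) x := by
    refine ⟨hx, fun b hb => ?_⟩
    have e : ⟪x - (c + (2 : ℝ) • m), b⟫
        = 2 * ⟪(1 / 2 : ℝ) • x + (1 / 2 : ℝ) • (-c) - m, b⟫ := by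
      simp only [inner_sub_left, inner_add_left, real_inner_smul_left, inner_neg_left]
      ring
    simp only
    rw [e, abs_mul, abs_two]
    have := hmb b hb
    linarith
  have hex : ∃ y, cell (c, m) y := ⟨x, hcx⟩
  refine ⟨rep (c, m), Finset.mem_image_of_mem _
    (Finset.mem_filter.mpr ⟨Finset.mem_product.mpr ⟨hc, hm⟩, hex⟩), fun b hb => ?_⟩
  have h1 := abs_le.mp (hcx.2 b hb)
  have h2 := abs_le.mp (hex.choose_spec.2 b hb)
  simp only [hrep, dif_pos hex, inner_sub_left] at h1 h2 ⊢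
  exact abs_le.mpr ⟨by linarith, by linarith⟩

theorem scale_descent {K B : Set V} (hK : Convex ℝ K) (hneg : ∀ x ∈ K, -x ∈ K) {r : ℕ}
    (hr : 1 ≤ r) {M : ℕ → Finset V}
    (hM : ∀ j, ∀ u ∈ K, (∀ b ∈ B, |⟪u, b⟫| ≤ 2 ^ j) →
      ∃ m ∈ M j, ∀ b ∈ B, |⟪u - m, b⟫| ≤ 2 ^ j * ((2 : ℝ) ^ (r + 1))⁻¹) (J : ℕ) :
    ∀ C : Finset V, (∀ c ∈ C, c ∈ K) →
      (∀ x ∈ K, ∃ c ∈ C, ∀ b ∈ B, |⟪x - c, b⟫| ≤ 2 ^ (r * J)) →
      ∃ C' : Finset V, C'.card ≤ C.card * ∏ i ∈ Finset.range J, (M (r * i + (r - 1))).card ∧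
        ∀ x ∈ K, ∃ c ∈ C', ∀ b ∈ B, |⟪x - c, b⟫| ≤ 1 := by
  induction J with
  | zero =>
    intro C _ hC
    exact ⟨C, by simp, by simpa using hC⟩
  | succ J ih =>
    intro C hC hCcov
    have e1 : r * (J + 1) = r * J + (r - 1) + 1 := by rw [Nat.mul_succ]; omega
    rw [e1] at hCcov
    obtain ⟨C', hC', hcard, hcov⟩ := scale_step hK hneg _ hC hCcov (hM (r * J + (r - 1)))
    have e2 : 4 * ((2 : ℝ) ^ (r * J + (r - 1)) * ((2 : ℝ) ^ (r + 1))⁻¹) = 2 ^ (r * J) := by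
      obtain ⟨q, rfl⟩ := Nat.exists_eq_add_of_le' hr
      simp only [Nat.add_sub_cancel, pow_add, pow_one]
      field_simp
      ring
    rw [e2] at hcov
    obtain ⟨C'', hcard'', hcov''⟩ := ih C' hC' hcov
    refine ⟨C'', hcard''.trans ?_, hcov''⟩
    rw [Finset.prod_range_succ, mul_comm (∏ i ∈ Finset.range J, (M (r * i + (r - 1))).card),
      ← mul_assoc]
    exact Nat.mul_le_mul_right _ hcard

theorem exists_level_cover {K B : Set V} (hKc : IsCompact K) (hK0 : (0 : V) ∈ K)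
    (hB : Convex ℝ B) (hB0 : (0 : V) ∈ B) (hBneg : ∀ b ∈ B, -b ∈ B) (j : ℕ) {F : Finset V}
    {m : ℕ} {γ δ ρ : ℝ} (hγ : 0 < γ) (hδ : 0 < δ) (hρ : 0 < ρ) (hρ1 : ρ ≤ 1)
    (ha : 2 * γ + m * δ ≤ ρ / 4) (hdrop : (3 * γ / δ) ^ m * Real.log F.card ≤ ρ ^ 2 / 16)
    (hnet : ∀ b ∈ B, ∃ p ∈ F, p ∈ B ∧ ∀ x ∈ K, (∀ b' ∈ B, |⟪x, b'⟫| ≤ 2 ^ j) →
      |⟪x, b - p⟫| ≤ γ * 2 ^ j) :
    ∃ M : Finset V, M.card ≤ F.card ^ m ∧
      ∀ u ∈ K, (∀ b ∈ B, |⟪u, b⟫| ≤ 2 ^ j) →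
        ∃ p ∈ M, ∀ b ∈ B, |⟪u - p, b⟫| ≤ 2 ^ j * ρ := by
  classical
  set c : ℝ := ((2 : ℝ) ^ j)⁻¹ with hc
  have hc0 : 0 < c := by positivity
  have hcmul : c * 2 ^ j = 1 := inv_mul_cancel₀ (by positivity)
  set K₁ : Set V := K ∩ ⋂ b ∈ B, {x | |⟪x, b⟫| ≤ 2 ^ j} with hK₁
  have hK₁mem : ∀ x, x ∈ K₁ ↔ x ∈ K ∧ ∀ b ∈ B, |⟪x, b⟫| ≤ 2 ^ j := fun x => by simp [hK₁]
  have hK₁c : IsCompact K₁ :=
    hKc.inter_right (isClosed_biInter fun b _ => isClosed_le (by fun_prop) continuous_const)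
  have hS0 : (0 : V) ∈ c • K₁ := ⟨0, (hK₁mem 0).mpr ⟨hK0, fun b _ => by simp⟩, smul_zero c⟩
  obtain ⟨M, hMcard, hMcov⟩ := bounded_cover hB hB0 hBneg (hK₁c.smul c) hS0
    (fun v hv b hb => by
      obtain ⟨x, hx, rfl⟩ := hv
      simp only [real_inner_smul_left]
      rw [abs_mul, abs_of_pos hc0, ← hcmul]
      exact mul_le_mul_of_nonneg_left (((hK₁mem x).mp hx).2 b hb) hc0.le)
    hγ hδ hρ hρ1 ha hdrop
    (fun b hb => by
      obtain ⟨p, hp, hpB, h⟩ := hnet b hb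
      refine ⟨p, hp, hpB, fun v hv => ?_⟩
      obtain ⟨x, hx, rfl⟩ := hv
      obtain ⟨hxK, hxb⟩ := (hK₁mem x).mp hx
      have h1 := h x hxK hxb
      rw [inner_sub_right] at h1
      simp only [real_inner_smul_left]
      rw [← mul_sub, abs_mul, abs_of_pos hc0]
      calc c * |⟪x, b⟫ - ⟪x, p⟫| ≤ c * (γ * 2 ^ j) := by gcongr
        _ = γ := by rw [mul_left_comm, hcmul, mul_one])
  refine ⟨M.image (fun m => ((2 : ℝ) ^ j) • m), Finset.card_image_le.trans hMcard,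
    fun u hu hub => ?_⟩
  obtain ⟨p, hp, hpb⟩ := hMcov (c • u) ⟨u, (hK₁mem u).mpr ⟨hu, hub⟩, rfl⟩
  refine ⟨_, Finset.mem_image_of_mem _ hp, fun b hb => ?_⟩
  have e : u - ((2 : ℝ) ^ j) • p = ((2 : ℝ) ^ j) • (c • u - p) := by
    rw [smul_sub, smul_smul, mul_comm, hcmul, one_smul]
  rw [e, real_inner_smul_left, abs_mul, abs_of_nonneg (by positivity : (0 : ℝ) ≤ 2 ^ j)]
  exact mul_le_mul_of_nonneg_left (hpb b hb) (by positivity)

/-- Nets along an arithmetic progression of scales: only `p` residues occur. -/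
theorem sum_progression {K B : Set V} {γ ε : ℝ} (hB : Convex ℝ B) (h0 : (0 : V) ∈ B)
    {r p : ℕ} (hk0 : 1 ≤ r * p) (hγ : 4 * ((2 : ℝ) ^ (r * p))⁻¹ ≤ γ / 2) (hε : 8 * ε ≤ γ)
    {T : Finset V} (hT : ∀ b ∈ B, ∃ c ∈ T, ∀ x ∈ K, |⟪x, b - c⟫| ≤ ε)
    {F : ℕ → Finset V} (hF : ∀ j, ScaleSeparated K B γ j (F j))
    (hne : ∀ j, (F j).Nonempty) (d n : ℕ) :
    ∑ i ∈ Finset.range (p * n), Real.log (F (r * i + d)).card ≤ p * Real.log T.card := by
  have hsplit : ∀ f : ℕ → ℝ, ∑ i ∈ Finset.range (p * n), f i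
      = ∑ q ∈ Finset.range p, ∑ i ∈ Finset.range n, f (p * i + q) := by
    intro f
    rw [Finset.sum_comm]
    clear * -
    induction n with
    | zero => simp
    | succ n ih => rw [Finset.sum_range_succ, ← ih, Nat.mul_succ, Finset.sum_range_add]
  rw [hsplit]
  calc _ ≤ ∑ _q ∈ Finset.range p, Real.log T.card := ?_
    _ = p * Real.log T.card := by simp
  refine Finset.sum_le_sum fun q _ => ?_
  rw [← Real.log_prod fun i _ => Nat.cast_ne_zero.mpr (hne _).card_pos.ne', ← Nat.cast_prod]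
  refine Real.log_le_log (by exact_mod_cast Finset.prod_pos fun i _ => (hne _).card_pos) ?_
  have e : ∀ i, r * (p * i + q) + d = r * q + d + i * (r * p) := fun i => by ring
  simp only [e]
  exact_mod_cast prod_card_le hB h0 hk0 hγ hε hT hF n (r * q + d)

/-- The step of the scales for the target power. -/
theorem exists_step {Z : ℝ} (hZ : 1 ≤ Z) :
    ∃ r : ℕ, 1 ≤ r ∧ Z ≤ (2 : ℝ) ^ r ∧ (2 : ℝ) ^ r ≤ 4 * Z := by
  refine ⟨Nat.log 2 ⌈Z⌉₊ + 1, by omega, ?_, ?_⟩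
  · refine (Nat.le_ceil Z).trans ?_
    exact_mod_cast (Nat.lt_pow_succ_log_self one_lt_two _).le
  · have h1 : ((2 : ℝ) ^ Nat.log 2 ⌈Z⌉₊) ≤ ⌈Z⌉₊ := by
      exact_mod_cast Nat.pow_log_le_self 2 (Nat.ceil_pos.mpr (by linarith)).ne'
    have h2 := Nat.ceil_lt_add_one (by linarith : (0 : ℝ) ≤ Z)
    rw [pow_succ]
    linarith

/-- The comparison in functional form: absolute factor, small power loss in the scale. -/
theorem cover_of_dual_cover {K B : Set V} (hKc : IsCompact K) (hK : Convex ℝ K)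
    (hK0 : (0 : V) ∈ K) (hKneg : ∀ x ∈ K, -x ∈ K) (hBc : IsCompact B) (hB : Convex ℝ B)
    (hB0 : (0 : V) ∈ B) (hBneg : ∀ b ∈ B, -b ∈ B) {k : ℕ} (hk : 1 ≤ k) {T : Finset V} {a : ℝ}
    (ha : 402653184 * (k : ℝ) ^ 4 * (1 + Real.log T.card) ^ ((k : ℝ)⁻¹) ≤ a)
    (hT : ∀ b ∈ B, ∃ c ∈ T, ∀ x ∈ K, |⟪x, b - c⟫| ≤ a⁻¹) :
    ∃ C : Finset V, (∀ x ∈ K, ∃ c ∈ C, ∀ b ∈ B, |⟪x - c, b⟫| ≤ 1) ∧
      Real.log C.card ≤ 76 * (k : ℝ) * Real.log T.card := by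
  classical
  set L := Real.log (T.card : ℝ) with hL
  have hL0 : 0 ≤ L := Real.log_natCast_nonneg _
  set m := 4 * k with hm
  have hm1 : (1 : ℝ) ≤ m := by rw [hm]; push_cast; norm_cast; omega
  set X := (1 + L) ^ ((m : ℝ)⁻¹) with hX
  have hX1 : 1 ≤ X := Real.one_le_rpow (by linarith) (by positivity)
  have hXm : X ^ m = 1 + L := Real.rpow_inv_natCast_pow (by linarith) (by omega)
  obtain ⟨r, hr, hZlo, hZhi⟩ := exists_step (one_le_mul_of_one_le_of_one_le hm1 hX1)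
  set Q := (2 : ℝ) ^ r with hQ
  have hQ2 : 2 ≤ Q := le_self_pow₀ one_le_two (by omega)
  set R := 64 * X * Q ^ 2 with hR
  set ρ := ((2 : ℝ) ^ (r + 1))⁻¹ with hρ
  have hρQ : ρ = (2 * Q)⁻¹ := by rw [hρ, pow_succ, mul_comm]
  have hρ0 : 0 < ρ := by positivity
  have hρ1 : ρ ≤ 1 := inv_le_one_of_one_le₀ (one_le_pow₀ one_le_two)
  set δ := ρ / (8 * m) with hδ
  set γ := δ / (3 * R) with hγ
  have hR1 : 1 ≤ R := by
    rw [hR]; exact one_le_mul_of_one_le_of_one_le (by linarith) (one_le_pow₀ (by linarith))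
  have hδ0 : 0 < δ := by positivity
  have hγ0 : 0 < γ := by positivity
  have hγinv : 8 / γ = 24576 * ((m : ℝ) * X) * Q ^ 3 := by
    rw [hγ, hδ, hρQ, hR]
    field_simp
    ring
  have htol : 2 * γ + m * δ ≤ ρ / 4 := by
    have e : (m : ℝ) * δ = ρ / 8 := by rw [hδ]; field_simp
    have h1 : γ ≤ δ / 3 := by
      rw [hγ]; gcongr; linarith
    have h2 : δ ≤ ρ / 8 := by
      rw [hδ]; gcongr; linarith
    linarith
  have hdrop : ∀ F : Finset V, F.Nonempty → F.card ≤ T.card →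
      (3 * γ / δ) ^ m * Real.log F.card ≤ ρ ^ 2 / 16 := by
    intro F hF hFT
    have e : 3 * γ / δ = R⁻¹ := by rw [hγ]; field_simp
    have h1 : Real.log F.card ≤ L :=
      Real.log_le_log (by exact_mod_cast hF.card_pos) (by exact_mod_cast hFT)
    have h2 : 64 * (1 + L) * Q ^ 2 ≤ R ^ m := by
      rw [hR, mul_pow, mul_pow, hXm]
      gcongr
      · exact le_self_pow₀ (by norm_num) (by omega)
      · exact le_self_pow₀ (one_le_pow₀ (by linarith)) (by omega)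
    rw [e, inv_pow, hρQ, inv_mul_le_iff₀ (by positivity)]
    refine h1.trans (le_trans ?_ (mul_le_mul_of_nonneg_right h2 (by positivity)))
    rw [show 64 * (1 + L) * Q ^ 2 * ((2 * Q)⁻¹ ^ 2 / 16) = 1 + L by field_simp; ring]
    linarith
  have hwin : 4 * ((2 : ℝ) ^ (r * 19))⁻¹ ≤ γ / 2 := by
    have h1 : 8 / γ ≤ (2 : ℝ) ^ (r * 19) := by
      rw [hγinv, pow_mul, ← hQ]
      calc 24576 * ((m : ℝ) * X) * Q ^ 3 ≤ 2 ^ 15 * Q * Q ^ 3 := by
            gcongr; norm_num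
        _ ≤ Q ^ 15 * Q * Q ^ 3 := by gcongr
        _ = Q ^ 19 := by ring
    rw [div_le_iff₀ hγ0] at h1
    rw [← div_eq_mul_inv, div_le_iff₀ (by positivity)]
    linarith
  have ha' : 8 * a⁻¹ ≤ γ := by
    have h1 : 24576 * ((m : ℝ) * X) * Q ^ 3 ≤ 24576 * ((m : ℝ) * X) * (4 * ((m : ℝ) * X)) ^ 3 := by
      gcongr
    have hX4 : X ^ 4 = (1 + L) ^ ((k : ℝ)⁻¹) := by
      rw [hX, ← Real.rpow_natCast, ← Real.rpow_mul (by linarith)]
      congr 1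
      rw [hm]; push_cast; field_simp
    have hmk : (m : ℝ) = 4 * k := by rw [hm]; push_cast; ring
    have h2 : 24576 * ((m : ℝ) * X) * (4 * ((m : ℝ) * X)) ^ 3
        = 402653184 * (k : ℝ) ^ 4 * (1 + L) ^ ((k : ℝ)⁻¹) := by
      rw [← hX4, hmk]; ring
    have h3 : 8 / γ ≤ a := by rw [hγinv]; linarith
    have ha0 : 0 < a := lt_of_lt_of_le (by positivity) h3
    rw [div_le_iff₀ hγ0] at h3
    rw [← div_eq_mul_inv, div_le_iff₀ ha0]
    linarith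
  obtain ⟨F, hsep, hF⟩ := exists_separated_nets hB hB0 (by omega : 1 ≤ r * 19) hwin ha' hT
  choose M hMcard hM using fun j => exists_level_cover hKc hK0 hB hB0 hBneg j (m := m) hγ0 hδ0
    hρ0 hρ1 htol (hdrop (F j) (hF j).1 (hF j).2.1) (hF j).2.2
  obtain ⟨R₁, hR₁⟩ := hKc.isBounded.exists_norm_le
  obtain ⟨R₂, hR₂⟩ := hBc.isBounded.exists_norm_le
  obtain ⟨n, hn⟩ := pow_unbounded_of_one_lt (R₁ * R₂) (one_lt_two : (1 : ℝ) < 2)
  have hstart : ∀ x ∈ K, ∃ c ∈ ({0} : Finset V), ∀ b ∈ B,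
      |⟪x - c, b⟫| ≤ 2 ^ (r * (19 * n)) := by
    intro x hx
    refine ⟨0, Finset.mem_singleton_self _, fun b hb => ?_⟩
    rw [sub_zero]
    calc |⟪x, b⟫| ≤ ‖x‖ * ‖b‖ := abs_real_inner_le_norm _ _
      _ ≤ R₁ * R₂ := mul_le_mul (hR₁ x hx) (hR₂ b hb) (norm_nonneg _)
          ((norm_nonneg _).trans (hR₁ x hx))
      _ ≤ 2 ^ n := hn.le
      _ ≤ 2 ^ (r * (19 * n)) := pow_le_pow_right₀ one_le_two (by
          rw [← mul_assoc]; exact Nat.le_mul_of_pos_left n (by omega))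
  obtain ⟨C, hCcard, hCcov⟩ := scale_descent hK hKneg hr (M := M) hM (19 * n) {0}
    (by simpa using hK0) hstart
  refine ⟨C, hCcov, ?_⟩
  obtain ⟨c, hc, -⟩ := hCcov 0 hK0
  rw [Finset.card_singleton, one_mul] at hCcard
  have hcard : C.card ≤ ∏ i ∈ Finset.range (19 * n), (F (r * i + (r - 1))).card ^ m :=
    hCcard.trans (Finset.prod_le_prod' fun i _ => hMcard _)
  have h1 : Real.log C.card
      ≤ ∑ i ∈ Finset.range (19 * n), (m : ℝ) * Real.log (F (r * i + (r - 1))).card := by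
    refine (Real.log_le_log (by exact_mod_cast Finset.card_pos.mpr ⟨c, hc⟩)
      (Nat.cast_le.mpr hcard)).trans (le_of_eq ?_)
    push_cast
    rw [Real.log_prod fun i _ => pow_ne_zero _ (Nat.cast_ne_zero.mpr (hF _).1.card_pos.ne')]
    simp [Real.log_pow]
  rw [← Finset.mul_sum] at h1
  have h2 := sum_progression hB hB0 (by omega : 1 ≤ r * 19) hwin ha' hT hsep
    (fun j => (hF j).1) (r - 1) n
  have h3 := mul_le_mul_of_nonneg_left h2 (Nat.cast_nonneg m : (0 : ℝ) ≤ m)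
  rw [hm] at h1 h3
  push_cast at h1 h3 ⊢
  linarith

/-- Absolute factor, small power loss in the scale, for bodies in Euclidean space. -/
theorem log_coveringNumber_le {n : ℕ} {K L : Set (Euc n)} (hK : IsSymmConvexBody K)
    (hL : IsSymmConvexBody L) {k : ℕ} (hk : 1 ≤ k) {a : ℝ}
    (ha : 402653184 * (k : ℝ) ^ 4
      * (1 + Real.log (coveringNumber (polarBody L) (polarBody K))) ^ ((k : ℝ)⁻¹) ≤ a) :
    Real.log (coveringNumber K (a • L))
      ≤ 76 * (k : ℝ) * Real.log (coveringNumber (polarBody L) (polarBody K)) := by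
  classical
  have ha0 : 0 < a := lt_of_lt_of_le (by
    have : (0 : ℝ) < k := by exact_mod_cast hk
    have := Real.rpow_pos_of_pos (by
      have := Real.log_natCast_nonneg (coveringNumber (polarBody L) (polarBody K))
      linarith : (0 : ℝ) < 1 + Real.log (coveringNumber (polarBody L) (polarBody K))) ((k : ℝ)⁻¹)
    positivity) ha
  have hK' := hK.smul (inv_pos.mpr ha0)
  obtain ⟨T, hTcard, hTcov⟩ := exists_cover hL.polar.1 hK.polar.zero_mem_interior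
  rw [← hTcard] at ha ⊢
  obtain ⟨C, hCcov, hClog⟩ := cover_of_dual_cover hK'.1 hK'.2.1 hK'.zero_mem hK'.2.2.2
    hL.polar.1 hL.polar.2.1 hL.polar.zero_mem hL.polar.2.2.2 hk (T := T) ha (by
      intro b hb
      obtain ⟨c, hc, y, hy, rfl⟩ := Set.mem_iUnion₂.mp (hTcov hb)
      refine ⟨c, hc, ?_⟩
      rintro _ ⟨x, hx, rfl⟩
      simp only [vadd_eq_add, add_sub_cancel_left, real_inner_smul_left]
      rw [abs_mul, abs_of_nonneg (inv_nonneg.mpr ha0.le)]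
      exact mul_le_of_le_one_right (inv_nonneg.mpr ha0.le)
        (abs_inner_le_of_mem_polarBody hK.2.2.2 hx hy))
  refine le_trans ?_ hClog
  have hsub : K ⊆ ⋃ c ∈ C.image (fun c => a • c), c +ᵥ (a • L) := by
    intro x hx
    obtain ⟨c, hc, hcb⟩ := hCcov (a⁻¹ • x) ⟨x, hx, rfl⟩
    refine Set.mem_iUnion₂.mpr ⟨a • c, Finset.mem_image_of_mem _ hc, x - a • c,
      ⟨a⁻¹ • x - c, ?_, ?_⟩, by simp⟩
    · exact mem_of_mem_bipolar hL.2.1 hL.1.isClosed hL.zero_mem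
        fun y hy => (abs_le.mp (hcb y hy)).2
    · simp [smul_sub, smul_smul, ha0.ne']
  rcases Nat.eq_zero_or_pos (coveringNumber K (a • L)) with h | h
  · rw [h, Nat.cast_zero, Real.log_zero]
    exact Real.log_natCast_nonneg _
  · exact Real.log_le_log (by exact_mod_cast h)
      (by exact_mod_cast (coveringNumber_le _ hsub).trans Finset.card_image_le)

end Vale.Agent.P126.Sharp
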